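import Vale.Agent.P032.S5.H12.Inst0
import Vale.Agent.P032.S5.H813.ArcF
import Vale.Agent.P032.H757.PNet

/-!
# P032: step B from three facts on full middle hubs (interface of the network argument)

Frame: `Irr U T`, at most four colours at a point, nothing assumed on adjacent four-coloured
points.  `FactsB T` lists what is needed of the circles: `L2`, `L3` (a centre with a complementary
pair of clean ends has a third clean end of these two types; three such ends are positively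
dependent), `arc_v`, `arc_q` (the far ends of the three arcs at a middle centre are clean) and
`le_al`, `le_far` (two common points are not four-coloured).  Then no two-pair centre has a
complementary pair of clean ends.
-/

open Set Filter Topology Metric

noncomputable section

namespace Vale.Agent.P032.H757

open Vale.Agent.P032.Six Vale.Agent.P032.Net.H672

variable {U : Fin 6 → Set ℂ} {T : ℂ → Set (Fin 6)} {X : Set (Fin 6)} {z v q m : ℂ}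

/-- `v`, `q` are clean ends of complementary types of exact arcs of `S(z)` -/
def Cp (T : ℂ → Set (Fin 6)) (z v q : ℂ) : Prop := EE T z v ∧ EE T z q ∧ T q = (T v)ᶜ

/-- the facts on words: a third clean end -/
structure FactsW (T : ℂ → Set (Fin 6)) : Prop where
  L2 : ∀ {z v q}, Cp T z v q →
    (∃ v', v' ≠ v ∧ EE T z v' ∧ T v' = T v) ∨ ∃ q', q' ≠ q ∧ EE T z q' ∧ T q' = T q
  L3 : ∀ {z v q q'}, Cp T z v q → Cp T z v q' → q ≠ q' →
    (∀ v', EE T z v' → T v' = T v → v' = v) → (∀ p, EE T z p → T p = T q → p = q ∨ p = q') →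
    ∃ α β γ : ℝ, 0 < α ∧ 0 < β ∧ 0 < γ ∧
      (α : ℂ) * (v - z) + (β : ℂ) * (q - z) + (γ : ℂ) * (q' - z) = 0

/-- the facts on full middle hubs -/
structure FactsM (T : ℂ → Set (Fin 6)) : Prop where
  arc_v : ∀ {M v q q'}, Cp T M v q → Cp T M v q' → q ≠ q' → ∃ V, AA T M v V
  arc_q : ∀ {M v q q'}, Cp T M v q → Cp T M v q' → q ≠ q' → ∃ r, AA T M q r
  le_al : ∀ {M v q q'}, Cp T M v q → Cp T M v q' → q ≠ q' →
    (∀ i, i ∈ T (v + q - M) ∨ i ∈ T (v + q' - M)) → (T (v + q + q' - 2 * M)).ncard ≤ 3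
  le_far : ∀ {M v q q' v' r r' p}, Cp T M v q → Cp T M v q' → q ≠ q' → AA T M v v' →
    AA T M q r → AA T M q' r' → Dist.dist p (v + q - M) = 1 → Dist.dist p (v' + r - M) = 1 →
    (T p).ncard ≤ 3

/-- the network, from the facts on words -/
theorem net_of (h : Irr U T) (h4 : ∀ z, (T z).ncard ≤ 4) (W : FactsW T) (X : Set (Fin 6)) :
    Net (fun z v => EE T z v ∧ T v = X) (fun z q => EE T z q ∧ T q = Xᶜ) := by
  have hX3 : ∀ {z v}, EE T z v ∧ T v = X → X.ncard = 3 := by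
    rintro z v ⟨h1, rfl⟩; exact h1.card_v
  have hX3' : ∀ {z v}, EE T z v ∧ T v = Xᶜ → X.ncard = 3 := by
    rintro z v ⟨h1, h2⟩
    have h3 := h1.card_v
    rw [h2] at h3
    have := Set.ncard_add_ncard_compl X
    rw [Nat.card_eq_fintype_card, Fintype.card_fin] at this
    omega
  have hc : ∀ {z v z' q}, EE T z v ∧ T v = X → EE T z' q ∧ T q = Xᶜ → T q = (T v)ᶜ := by
    rintro z v z' q ⟨-, h1⟩ ⟨-, h2⟩
    rw [h1, h2]
  have hc' : ∀ {z v z' q}, EE T z v ∧ T v = X → EE T z' q ∧ T q = Xᶜ → T v = (T q)ᶜ := by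
    rintro z v z' q ⟨-, h1⟩ ⟨-, h2⟩
    rw [h1, h2, compl_compl]
  refine
    { dist_t := fun hv => hv.1.dist
      dist_c := fun hq => hq.1.dist
      ne := fun {z z' v} hv hq => ?_
      rh := fun {z v q} hv hq => ⟨⟨hv.1.rh h h4 hq.1 (hc hv hq), hv.2⟩,
        ⟨hv.1.rh' h h4 hq.1 (hc hv hq), hq.2⟩⟩
      three_t := ?_
      three_c := ?_
      sep := ?_
      L2 := ?_
      L3 := ?_
      L3' := ?_ }
  · have h5 := (hv.1.en hv.2).ne (hX3 hv) (hq.1.en hq.2)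
    exact h5 rfl
  · rintro v z₁ z₂ z₃ z₄ ⟨a1, q1, b1⟩ ⟨a2, q2, b2⟩ ⟨a3, q3, b3⟩ ⟨a4, q4, b4⟩
    exact h.en_three (hX3 a1) ⟨a1.1.en a1.2, q1, b1.1.en b1.2⟩ ⟨a2.1.en a2.2, q2, b2.1.en b2.2⟩
      ⟨a3.1.en a3.2, q3, b3.1.en b3.2⟩ ⟨a4.1.en a4.2, q4, b4.1.en b4.2⟩
  · rintro q z₁ z₂ z₃ z₄ ⟨a1, q1, b1⟩ ⟨a2, q2, b2⟩ ⟨a3, q3, b3⟩ ⟨a4, q4, b4⟩
    have e : ∀ {z v}, EE T z v ∧ T v = X → En T Xᶜᶜ z v := fun hv =>
      hv.1.en (by rw [compl_compl]; exact hv.2)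
    exact h.en_three (X := Xᶜ) (ncard_compl_three (hX3' a1))
      ⟨a1.1.en a1.2, q1, e b1⟩ ⟨a2.1.en a2.2, q2, e b2⟩
      ⟨a3.1.en a3.2, q3, e b3⟩ ⟨a4.1.en a4.2, q4, e b4⟩
  · rintro z v₁ v₂ q₁ q₂ hv₁ hv₂ hq₁ hq₂
    have e : ∀ {v q}, EE T z v ∧ T v = X → EE T z q ∧ T q = Xᶜ → T v ∩ T z = T z \ T q := by
      rintro v q ⟨-, h1⟩ ⟨-, h2⟩
      rw [h1, h2, Set.sdiff_compl, inter_comm]
    have l1 := hq₁.1.lp2 h hv₁.1 hv₂.1 (e hv₁ hq₁) (e hv₂ hq₁)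
    have l2 := hq₂.1.lp2 h hv₁.1 hv₂.1 (e hv₁ hq₂) (e hv₂ hq₂)
    have nz : ∀ {v q}, EE T z v ∧ T v = X → EE T z q ∧ T q = Xᶜ →
        cr (q - z) (v - z) ≠ 0 := by
      intro v q hv hq
      refine cr_ne_of hq.1.dist hv.1.dist ((hv.1.en hv.2).ne (hX3 hv) (hq.1.en hq.2)).symm ?_
      rw [add_comm]
      exact hv.1.anti h hq.1 (hc hv hq)
    have n11 := nz hv₁ hq₁
    have n21 := nz hv₂ hq₁
    have n12 := nz hv₁ hq₂
    have n22 := nz hv₂ hq₂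
    have hP : (0 < cr (q₁ - z) (v₁ - z) * cr (q₁ - z) (v₂ - z)) ↔
        0 < cr (q₂ - z) (v₁ - z) * cr (q₂ - z) (v₂ - z) := l1.symm.trans l2
    have hpos : 0 < (cr (q₁ - z) (v₁ - z) * cr (q₁ - z) (v₂ - z)) *
        (cr (q₂ - z) (v₁ - z) * cr (q₂ - z) (v₂ - z)) := by
      rcases lt_or_gt_of_ne (mul_ne_zero n11 n21) with h5 | h5
      · rcases lt_or_gt_of_ne (mul_ne_zero n12 n22) with h6 | h6
        · exact mul_pos_of_neg_of_neg h5 h6
        · exact absurd (hP.2 h6) (not_lt.2 h5.le)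
      · exact mul_pos h5 (hP.1 h5)
    refine hpos.trans_le (le_of_eq ?_)
    unfold cr Vale.Agent.P032.Net.H672.dt
    ring
  · intro z v q hv hq
    rcases W.L2 ⟨hv.1, hq.1, hc hv hq⟩ with ⟨v', h5, h6, h7⟩ | ⟨q', h5, h6, h7⟩
    · exact Or.inl ⟨v', h5, h6, h7.trans hv.2⟩
    · exact Or.inr ⟨q', h5, h6, h7.trans hq.2⟩
  · intro z v q q' hv hq hq' hne hu1 hu2
    exact W.L3 ⟨hv.1, hq.1, hc hv hq⟩ ⟨hv.1, hq'.1, hc hv hq'⟩ hne
      (fun v' h5 h6 => hu1 v' ⟨h5, h6.trans hv.2⟩) (fun p h5 h6 => hu2 p ⟨h5, h6.trans hq.2⟩)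
  · intro z q v v' hq hv hv' hne hu1 hu2
    exact W.L3 ⟨hq.1, hv.1, hc' hv hq⟩ ⟨hq.1, hv'.1, hc' hv' hq⟩ hne
      (fun v' h5 h6 => hu1 v' ⟨h5, h6.trans hq.2⟩) (fun p h5 h6 => hu2 p ⟨h5, h6.trans hv.2⟩)

/-- the network with arcs -/
theorem pnet_of (h : Irr U T) (h4 : ∀ z, (T z).ncard ≤ 4) (W : FactsW T) (F : FactsM T) :
    PNet T (EE T) (AA T) (ore T) (inn U T) where
  net := net_of h h4 W
  card_z := fun hv => hv.card_z
  card_v := fun hv => hv.card_v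
  card_i := fun hv => hv.card_i'
  cov := fun hv hq hc => hv.cov h h4 hq hc
  ori := fun {z v} _ => ore_or T z v
  inn_mem := fun hv => hv.inn_mem h
  LP1 := fun hv hq hc => hv.lp1 h h4 hq hc
  LP2 := fun hq hv hv' h1 h2 => hq.1.lp2 h hv.1 hv'.1 h1 h2
  LP3 := fun hv hq hc hv' hp hc' hcz hcw => hv.lp3 h h4 hq hc hv' hp hc' hcz hcw
  arc_v := fun m => F.arc_v ⟨m.hv, m.hq, m.e⟩ ⟨m.hv, m.hq', m.e'⟩ m.ne
  arc_q := fun m => F.arc_q ⟨m.hv, m.hq, m.e⟩ ⟨m.hv, m.hq', m.e'⟩ m.ne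
  arc_end := EE.fld_end
  arc_pair := EE.fld_pair
  arc_len := EE.fld_len h h4
  arc_uniq := EE.fld_uniq h h4
  arc_symm := EE.fld_symm
  arc_ori := EE.fld_ori h h4
  arc_inn := EE.fld_inn h
  auto := fun hv hq hc hm hTm => hv.auto h h4 hq hc hm hTm
  common := fun e1 _ e3 e1' _ e3' hne hcv d d' n hm s s' =>
    e1.common h e3 e1' e3' hne hcv d d' n s s' hm
  le_al := fun m => F.le_al ⟨m.hv, m.hq, m.e⟩ ⟨m.hv, m.hq', m.e'⟩ m.ne
  le_far := fun m => F.le_far ⟨m.hv, m.hq, m.e⟩ ⟨m.hv, m.hq', m.e'⟩ m.ne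
  lemX := fun hu' hpu hpr ht hT => hu'.lemX h hpu hpr ht hT

/-- **no complementary pair of clean ends** -/
theorem no_cp (h : Irr U T) (h4 : ∀ z, (T z).ncard ≤ 4) (W : FactsW T) (F : FactsM T) :
    ¬ Cp T z v q := fun hc => (pnet_of h h4 W F).false hc.1 hc.2.1 hc.2.2

end Vale.Agent.P032.H757
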